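import Claimed.Agent.R291.Dict.Law
import Claimed.Agent.R291.Defs.Ht

/-!
# Row 291 (S0539), Ht/Basic : BASIC API OF THE HEIGHT LAWS `htE`      (owner helper168; prefix `ht_`)      complete (0 sorry)

Vocabulary = `Defs/Ht` (helper115).  TEX: 01-introduction (1.1) (the frozen law), 02 "ordinary weighted height Gibbs law".
* `ht_adm_finite`, `ht_mem_cfg : h ∈ htCfg A b ↔ HtAdm A b h`, `ht_adm_bound`, `ht_adm_zero`, `ht_adm_self`
* `ht_Z_pos` (feasible boundary function), `ht_Z_pos_zero`, `ht_wt_pos`, `ht_Z_nonneg`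
* **`ht_bridge`**  `lipschitzExpect x δ σ F f φ = htFz x F (fun h => φ (htSm δ F f h / σ))`  (ANY `φ : ℝ → ℝ`, ANY finite `F`)
  `ht_fz_eq : dctlE x F G = htFz x F G`, `ht_adm_frozen : HtAdm (latInt F) 0 H ↔ DctlAdm F H`
* linear API: `ht_E_const/zero/add/sub/smul/mul_const/div_const/neg_fun/sum/congr`, order: `ht_E_mono/nonneg/abs_le/le_const/abs_le_const/one_le`
  (NO feasibility hypothesis except in `ht_E_const`), `ht_E_cs` (Cauchy-Schwarz)
* probabilities: `ht_P_nonneg/le_one/mono/congr/or_le/true/not/markov`, `ht_E_ind_le`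
* boundary function only matters off `A`: `ht_adm_congr`, `ht_cfg_congr`, `ht_Z_congr`, `ht_E_bc_congr`; `ht_N_congr` (`htN A` looks at `latCl A` only)
* **`ht_dlr`**  `A' ⊆ A → htE x A b G = htE x A b (fun h => htE x A' h G)`; `ht_dlr_mul` (spectator `U` not looking at `A'`); `ht_E_off`
  tools: `ht_adm_trans`, `ht_adm_sub_self`, `ht_adm_symm`, `ht_N_split`, `ht_N_rest_congr`
* covariances: `ht_E_transport` (any bijection of configurations), `ht_E_shift`, `ht_E_neg`, `ht_E_grad`, `ht_E_odd`,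
  `ht_E_aut` (affine lattice automorphism `T`, linear part `L`):  `htE x (A.image T) b (fun h => G (fun u => h (T u))) = htE x A (fun u => b (T u)) G`
  `ht_E_trans`, `ht_E_rot`, `ht_E_refl`, `ht_E_pt`; hexagons: `ht_ball_trans/rot/refl`, `ht_E_ball_trans/rot/refl`; `ht_N_two` (symmetric edge count)
* **`ht_top`**  `htFz x (F n) (fun h => htSm (δ n) (F n) f h ^ k) → tmmWick (σ² v) k` for all `k` ⟹ the frozen conclusion with variance `v.toNNReal`
  `ht_top_even` (even `k` suffice; `ht_fz_odd`), `ht_bridge_pow`, `ht_wick_scale`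
-/

set_option autoImplicit false

namespace Claimed.Agent.R291

open Claims.C0467 MeasureTheory ProbabilityTheory Filter Topology BoundedContinuousFunction

noncomputable section

/-! ## 8. `Defs/Ht`: finiteness, membership -/

theorem ht_eqns_cite : True := by
  have := @HtAdm.eq_1; have := @htCfg.eq_1; have := @htN.eq_1; have := @htWt.eq_1; have := @htZ.eq_1; have := @htE.eq_1
  have := @htP.eq_1; have := @htEc.eq_1; have := @HtLoc.eq_1; have := @HtGrad.eq_1; have := @HtMono.eq_1; have := @htPl.eq_1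
  have := @htGam.eq_1; have := @htFz.eq_1; have := @htSm.eq_1
  trivial

/-- a priori bound of an admissible height: `|h u| ≤ card A + ∑_{latCl A} |b|` -/
theorem ht_adm_bound {A : Finset TV} {b h : TV → ℤ} (hh : HtAdm A b h) {u : TV} (hu : u ∈ A) :
    |h u| ≤ (A.card : ℤ) + ∑ e ∈ latCl A, |b e| := by
  obtain ⟨k, hk1, hk2, hk3⟩ := dctl_ray A hu
  have h10 : ((1 : ℤ), (0 : ℤ)) ∈ latDirs := by decide
  have key : ∀ i : ℕ, i ≤ k + 1 → |h u - h (u + ((i : ℤ), 0))| ≤ i := by
    intro i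
    induction i with
    | zero =>
      intro _
      have e : u + (((0 : ℕ) : ℤ), (0 : ℤ)) = u := by ext <;> simp
      rw [e]; simp
    | succ i ih =>
      intro hi
      have h1 := ih (by omega)
      have e : u + ((i : ℤ), (0 : ℤ)) + (1, 0) = u + (((i + 1 : ℕ) : ℤ), 0) := by
        ext
        · simp; ring
        · simp
      have h2 := hh.2 _ (hk1 i (by omega)) _ h10
      rw [e] at h2
      have h3 := abs_sub_le (h u) (h (u + ((i : ℤ), 0))) (h (u + (((i + 1 : ℕ) : ℤ), 0)))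
      rw [abs_sub_comm (h (u + ((i : ℤ), 0)))] at h3
      push_cast at h3 h2 ⊢
      linarith
  have h4 := key (k + 1) le_rfl
  rw [hh.1 _ hk2] at h4
  have hcl : u + (((k + 1 : ℕ) : ℤ), 0) ∈ latCl A := by
    refine lat_mem_cl.2 (Or.inr ⟨u + ((k : ℤ), 0), hk1 k le_rfl, ?_⟩)
    have e : u + ((k : ℤ), (0 : ℤ)) + (1, 0) = u + (((k + 1 : ℕ) : ℤ), 0) := by
      ext
      · simp; ring
      · simp
    rw [← e]
    exact lat_adj_add _ h10
  have h5 : |b (u + (((k + 1 : ℕ) : ℤ), 0))| ≤ ∑ e ∈ latCl A, |b e| :=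
    Finset.single_le_sum (f := fun e => |b e|) (fun e _ => abs_nonneg _) hcl
  have h6 : ((k + 1 : ℕ) : ℤ) ≤ (A.card : ℤ) := by exact_mod_cast hk3
  have h7 := abs_sub_abs_le_abs_sub (h u) (b (u + (((k + 1 : ℕ) : ℤ), 0)))
  linarith

/-- **the set of admissible heights is always finite** -/
theorem ht_adm_finite (A : Finset TV) (b : TV → ℤ) : {h | HtAdm A b h}.Finite := by
  classical
  set M : ℤ := (A.card : ℤ) + ∑ e ∈ latCl A, |b e| with hM
  let ext : (A → ℤ) → TV → ℤ := fun g u => if hu : u ∈ A then g ⟨u, hu⟩ else b u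
  refine ((Fintype.piFinset (fun _ : A => Finset.Icc (-M) M)).finite_toSet.image ext).subset ?_
  intro h hh
  refine ⟨fun u => h u, ?_, ?_⟩
  · rw [Finset.mem_coe, Fintype.mem_piFinset]
    intro a
    rw [Finset.mem_Icc]
    exact abs_le.1 (ht_adm_bound hh a.2)
  · funext u
    by_cases hu : u ∈ A
    · simp [ext, hu]
    · simp [ext, hu, hh.1 u hu]

theorem ht_mem_cfg {A : Finset TV} {b h : TV → ℤ} : h ∈ htCfg A b ↔ HtAdm A b h := by
  classical
  unfold htCfg
  rw [dif_pos (ht_adm_finite A b)]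
  simp

/-- the boundary function itself is admissible as soon as it is Lipschitz on the edges meeting `A` -/
theorem ht_adm_self {A : Finset TV} {b : TV → ℤ} (hb : ∀ u ∈ A, ∀ d ∈ latDirs, |b (u + d) - b u| ≤ 1) : HtAdm A b b :=
  ⟨fun _ _ => rfl, hb⟩

theorem ht_adm_zero (A : Finset TV) : HtAdm A 0 0 := ht_adm_self (fun _ _ _ _ => by simp)

theorem ht_wt_pos {x : ℝ} (hx : 0 < x) (A : Finset TV) (h : TV → ℤ) : 0 < htWt x A h := pow_pos hx _

/-- the partition function is positive iff the boundary function is feasible -/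
theorem ht_Z_pos {x : ℝ} (hx : 0 < x) {A : Finset TV} {b h : TV → ℤ} (hh : HtAdm A b h) : 0 < htZ x A b :=
  Finset.sum_pos (fun g _ => ht_wt_pos hx A g) ⟨h, ht_mem_cfg.2 hh⟩

theorem ht_Z_pos_zero {x : ℝ} (hx : 0 < x) (A : Finset TV) : 0 < htZ x A 0 := ht_Z_pos hx (ht_adm_zero A)

/-! ## 9. THE BRIDGE: the frozen law is `htFz` -/

theorem ht_adm_frozen (F : Finset TV) (H : TV → ℤ) : HtAdm (latInt F) 0 H ↔ DctlAdm F H := by
  constructor
  · rintro ⟨h0, hL⟩
    refine ⟨fun u hu => h0 u (fun hc => hu (lat_int_sub F hc)), fun u hu hv => h0 u (fun hc => ?_), fun u v huv => ?_⟩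
    · obtain ⟨v, hv1, hv2⟩ := hv
      exact hv2 ((lat_mem_int.1 hc).2 v hv1)
    · by_cases hu : u ∈ latInt F
      · have := hL u hu (v - u) ((lat_adj_iff u v).1 huv)
        rw [add_sub_cancel] at this
        rwa [abs_sub_comm]
      · by_cases hv : v ∈ latInt F
        · have := hL v hv (u - v) ((lat_adj_iff v u).1 (lat_adj_symm huv))
          rwa [add_sub_cancel] at this
        · rw [h0 u hu, h0 v hv]; simp
  · rintro ⟨h0, h1, hL⟩
    refine ⟨fun u hu => ?_, fun u _ d hd => ?_⟩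
    · by_cases huF : u ∈ F
      · have : u ∈ latBd F := by
          rw [lat_int_eq, Finset.mem_sdiff] at hu
          by_contra hc
          exact hu ⟨huF, hc⟩
        exact h1 u huF (lat_mem_bd.1 this).2
      · exact h0 u huF
    · rw [abs_sub_comm]
      exact hL u (u + d) (lat_adj_add u hd)

theorem ht_dirs_eq : dctlDirs = latPos := rfl

/-- on heights vanishing off `latInt F`, `htN (latInt F)` counts all the unequal edges -/
theorem ht_N_frozen {F : Finset TV} {H : TV → ℤ} (h0 : ∀ u, u ∉ latInt F → H u = 0) : htN (latInt F) H = dctlN F H := by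
  classical
  unfold htN dctlN
  rw [← Finset.sum_product' (f := fun u d => if H u ≠ H (u + d) then 1 else 0), ht_dirs_eq]
  have hsub : latE (latInt F) ⊆ F ×ˢ latPos := by
    intro p hp
    unfold latE at hp
    rw [Finset.mem_filter, Finset.mem_product] at hp
    exact Finset.mem_product.2 ⟨lat_cl_int_sub F hp.1.1, hp.1.2⟩
  refine (Finset.sum_subset hsub (fun p hp hn => ?_)).trans ?_
  · rw [lat_mem_E] at hn
    push Not at hn
    have := hn (Finset.mem_product.1 hp).2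
    rw [h0 _ this.1, h0 _ this.2]
    simp
  · refine Finset.sum_congr rfl (fun p _ => ?_)
    congr

/-- **the frozen expectation functional is `htFz`** -/
theorem ht_fz_eq (x : ℝ) (F : Finset TV) (G : (TV → ℤ) → ℝ) : dctlE x F G = htFz x F G := by
  have hS : ∀ H, H ∈ htCfg (latInt F) 0 ↔ DctlAdm F H := fun H => by rw [ht_mem_cfg, ht_adm_frozen]
  rw [dctl_E_transport (Finset.Subset.refl F) hS]
  unfold htFz htE htZ htWt
  congr 1
  · exact Finset.sum_congr rfl (fun H hH => by rw [ht_N_frozen (ht_mem_cfg.1 hH).1])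
  · exact Finset.sum_congr rfl (fun H hH => by rw [ht_N_frozen (ht_mem_cfg.1 hH).1])

theorem ht_sm_eq (δ : ℝ) (F : Finset TV) (f : ℝ × ℝ → ℝ) {H : TV → ℤ} (h0 : ∀ u, u ∉ latInt F → H u = 0) :
    htSm δ F f H = dctlP δ F f H := by
  have := dctl_P_mono δ (lat_int_sub F) f h0
  rw [← this]
  rfl

/-- only the values on admissible heights matter -/
theorem ht_E_congr (x : ℝ) (A : Finset TV) (b : TV → ℤ) {G1 G2 : (TV → ℤ) → ℝ} (h : ∀ H, HtAdm A b H → G1 H = G2 H) :
    htE x A b G1 = htE x A b G2 := by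
  unfold htE
  congr 1
  exact Finset.sum_congr rfl (fun g hg => by rw [h _ (ht_mem_cfg.1 hg)])

/-- **THE BRIDGE** -/
theorem ht_bridge (x δ σ : ℝ) (F : Finset TV) (f : ℝ × ℝ → ℝ) (φ : ℝ → ℝ) :
    lipschitzExpect x δ σ F f φ = htFz x F (fun h => φ (htSm δ F f h / σ)) := by
  rw [dctl_expect, ht_fz_eq]
  exact ht_E_congr x _ _ (fun H hH => by rw [ht_sm_eq δ F f hH.1])

/-! ## 10. linear / monotone API of `htE` -/

theorem ht_Z_nonneg {x : ℝ} (hx : 0 < x) (A : Finset TV) (b : TV → ℤ) : 0 ≤ htZ x A b :=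
  Finset.sum_nonneg (fun g _ => (ht_wt_pos hx A g).le)

/-- the defining formula -/
theorem ht_E_def (x : ℝ) (A : Finset TV) (b : TV → ℤ) (G : (TV → ℤ) → ℝ) :
    htE x A b G = (∑ h ∈ htCfg A b, htWt x A h * G h) / htZ x A b := rfl

/-- the unnormalised form -/
theorem ht_E_mul_Z {x : ℝ} (hx : 0 < x) {A : Finset TV} {b h : TV → ℤ} (hh : HtAdm A b h) (G : (TV → ℤ) → ℝ) :
    htE x A b G * htZ x A b = ∑ h ∈ htCfg A b, htWt x A h * G h :=
  div_mul_cancel₀ _ (ht_Z_pos hx hh).ne'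

theorem ht_E_const {x : ℝ} (hx : 0 < x) {A : Finset TV} {b h : TV → ℤ} (hh : HtAdm A b h) (c : ℝ) : htE x A b (fun _ => c) = c := by
  unfold htE
  rw [← Finset.sum_mul]
  exact mul_div_cancel_left₀ c (ht_Z_pos hx hh).ne'

theorem ht_E_zero (x : ℝ) (A : Finset TV) (b : TV → ℤ) : htE x A b (fun _ => 0) = 0 := by
  unfold htE
  simp

theorem ht_E_add (x : ℝ) (A : Finset TV) (b : TV → ℤ) (G1 G2 : (TV → ℤ) → ℝ) :
    htE x A b (fun H => G1 H + G2 H) = htE x A b G1 + htE x A b G2 := by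
  unfold htE
  rw [← add_div, ← Finset.sum_add_distrib]
  congr 1
  exact Finset.sum_congr rfl (fun h _ => by ring)

theorem ht_E_smul (x : ℝ) (A : Finset TV) (b : TV → ℤ) (c : ℝ) (G : (TV → ℤ) → ℝ) :
    htE x A b (fun H => c * G H) = c * htE x A b G := by
  unfold htE
  rw [← mul_div_assoc, Finset.mul_sum]
  congr 1
  exact Finset.sum_congr rfl (fun h _ => by ring)

theorem ht_E_mul_const (x : ℝ) (A : Finset TV) (b : TV → ℤ) (c : ℝ) (G : (TV → ℤ) → ℝ) :
    htE x A b (fun H => G H * c) = htE x A b G * c := by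
  have := ht_E_smul x A b c G
  simp_rw [mul_comm c] at this
  exact this

theorem ht_E_div_const (x : ℝ) (A : Finset TV) (b : TV → ℤ) (c : ℝ) (G : (TV → ℤ) → ℝ) :
    htE x A b (fun H => G H / c) = htE x A b G / c := by
  simp_rw [div_eq_mul_inv]
  exact ht_E_mul_const x A b c⁻¹ G

theorem ht_E_neg_fun (x : ℝ) (A : Finset TV) (b : TV → ℤ) (G : (TV → ℤ) → ℝ) : htE x A b (fun H => -G H) = -htE x A b G := by
  have := ht_E_smul x A b (-1) G
  simpa using this

theorem ht_E_sub (x : ℝ) (A : Finset TV) (b : TV → ℤ) (G1 G2 : (TV → ℤ) → ℝ) :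
    htE x A b (fun H => G1 H - G2 H) = htE x A b G1 - htE x A b G2 := by
  unfold htE
  rw [← sub_div, ← Finset.sum_sub_distrib]
  congr 1
  exact Finset.sum_congr rfl (fun h _ => by ring)

theorem ht_E_sum (x : ℝ) (A : Finset TV) (b : TV → ℤ) {ι : Type*} (s : Finset ι) (G : ι → (TV → ℤ) → ℝ) :
    htE x A b (fun H => ∑ i ∈ s, G i H) = ∑ i ∈ s, htE x A b (G i) := by
  unfold htE
  rw [← Finset.sum_div, Finset.sum_comm]
  congr 1
  exact Finset.sum_congr rfl (fun h _ => by rw [Finset.mul_sum])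

/-- monotonicity; only the values on admissible heights matter; no feasibility needed -/
theorem ht_E_mono {x : ℝ} (hx : 0 < x) (A : Finset TV) (b : TV → ℤ) {G1 G2 : (TV → ℤ) → ℝ} (h : ∀ H, HtAdm A b H → G1 H ≤ G2 H) :
    htE x A b G1 ≤ htE x A b G2 := by
  unfold htE
  refine div_le_div_of_nonneg_right (Finset.sum_le_sum (fun g hg => ?_)) (ht_Z_nonneg hx A b)
  exact mul_le_mul_of_nonneg_left (h _ (ht_mem_cfg.1 hg)) (ht_wt_pos hx A g).le

theorem ht_E_nonneg {x : ℝ} (hx : 0 < x) (A : Finset TV) (b : TV → ℤ) {G : (TV → ℤ) → ℝ} (h : ∀ H, HtAdm A b H → 0 ≤ G H) :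
    0 ≤ htE x A b G := by
  have := ht_E_mono hx A b (G1 := fun _ => 0) (G2 := G) h
  rwa [ht_E_zero] at this

theorem ht_E_abs_le {x : ℝ} (hx : 0 < x) (A : Finset TV) (b : TV → ℤ) (G : (TV → ℤ) → ℝ) :
    |htE x A b G| ≤ htE x A b (fun H => |G H|) := by
  rw [abs_le]
  constructor
  · have := ht_E_mono hx A b (G1 := fun H => -|G H|) (G2 := G) (fun H _ => neg_abs_le (G H))
    rwa [ht_E_neg_fun] at this
  · exact ht_E_mono hx A b (fun H _ => le_abs_self _)

/-- the mass of the law is `≤ 1` (it is `1` for a feasible boundary function and `0` otherwise) -/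
theorem ht_E_one_le {x : ℝ} (hx : 0 < x) (A : Finset TV) (b : TV → ℤ) : htE x A b (fun _ => 1) ≤ 1 := by
  unfold htE
  simp only [mul_one]
  exact div_self_le_one _

theorem ht_E_le_const {x : ℝ} (hx : 0 < x) (A : Finset TV) (b : TV → ℤ) {G : (TV → ℤ) → ℝ} {c : ℝ} (hc : 0 ≤ c)
    (h : ∀ H, HtAdm A b H → G H ≤ c) : htE x A b G ≤ c := by
  have h1 := ht_E_mono hx A b (G1 := G) (G2 := fun _ => c * 1) (fun H hH => by simpa using h H hH)
  rw [ht_E_smul] at h1
  nlinarith [ht_E_one_le hx A b]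

theorem ht_E_abs_le_const {x : ℝ} (hx : 0 < x) (A : Finset TV) (b : TV → ℤ) {G : (TV → ℤ) → ℝ} {c : ℝ} (hc : 0 ≤ c)
    (h : ∀ H, HtAdm A b H → |G H| ≤ c) : |htE x A b G| ≤ c :=
  (ht_E_abs_le hx A b G).trans (ht_E_le_const hx A b hc h)

/-- Cauchy-Schwarz -/
theorem ht_E_cs {x : ℝ} (hx : 0 < x) (A : Finset TV) (b : TV → ℤ) (G1 G2 : (TV → ℤ) → ℝ) :
    htE x A b (fun H => G1 H * G2 H) ^ 2 ≤ htE x A b (fun H => G1 H ^ 2) * htE x A b (fun H => G2 H ^ 2) := by
  unfold htE
  rw [div_pow, div_mul_div_comm, ← sq]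
  refine div_le_div_of_nonneg_right ?_ (sq_nonneg _)
  have key := Finset.sum_mul_sq_le_sq_mul_sq (htCfg A b) (fun h => Real.sqrt (htWt x A h) * G1 h) (fun h => Real.sqrt (htWt x A h) * G2 h)
  have e : ∀ h, Real.sqrt (htWt x A h) * Real.sqrt (htWt x A h) = htWt x A h := fun h => Real.mul_self_sqrt (ht_wt_pos hx A h).le
  have e1 : ∑ h ∈ htCfg A b, Real.sqrt (htWt x A h) * G1 h * (Real.sqrt (htWt x A h) * G2 h) = ∑ h ∈ htCfg A b, htWt x A h * (G1 h * G2 h) :=
    Finset.sum_congr rfl (fun h _ => by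
      calc Real.sqrt (htWt x A h) * G1 h * (Real.sqrt (htWt x A h) * G2 h)
          = (Real.sqrt (htWt x A h) * Real.sqrt (htWt x A h)) * (G1 h * G2 h) := by ring
        _ = _ := by rw [e h])
  have e2 : ∀ G : (TV → ℤ) → ℝ, ∑ h ∈ htCfg A b, (Real.sqrt (htWt x A h) * G h) ^ 2 = ∑ h ∈ htCfg A b, htWt x A h * G h ^ 2 :=
    fun G => Finset.sum_congr rfl (fun h _ => by
      calc (Real.sqrt (htWt x A h) * G h) ^ 2 = (Real.sqrt (htWt x A h) * Real.sqrt (htWt x A h)) * G h ^ 2 := by ring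
        _ = _ := by rw [e h])
  rw [e1, e2, e2] at key
  exact key

/-! ### probabilities -/

theorem ht_P_nonneg {x : ℝ} (hx : 0 < x) (A : Finset TV) (b : TV → ℤ) (K : (TV → ℤ) → Prop) : 0 ≤ htP x A b K := by
  classical
  unfold htP
  exact ht_E_nonneg hx A b (fun H _ => by split_ifs <;> simp)

theorem ht_P_le_one {x : ℝ} (hx : 0 < x) (A : Finset TV) (b : TV → ℤ) (K : (TV → ℤ) → Prop) : htP x A b K ≤ 1 := by
  classical
  unfold htP
  exact ht_E_le_const hx A b zero_le_one (fun H _ => by split_ifs <;> simp)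

theorem ht_P_mono {x : ℝ} (hx : 0 < x) (A : Finset TV) (b : TV → ℤ) {K1 K2 : (TV → ℤ) → Prop} (h : ∀ H, HtAdm A b H → K1 H → K2 H) :
    htP x A b K1 ≤ htP x A b K2 := by
  classical
  unfold htP
  refine ht_E_mono hx A b (fun H hH => ?_)
  by_cases h1 : K1 H
  · simp [h1, h H hH h1]
  · rw [if_neg h1]; split_ifs <;> simp

theorem ht_P_congr (x : ℝ) (A : Finset TV) (b : TV → ℤ) {K1 K2 : (TV → ℤ) → Prop} (h : ∀ H, HtAdm A b H → (K1 H ↔ K2 H)) :
    htP x A b K1 = htP x A b K2 := by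
  classical
  unfold htP
  refine ht_E_congr x A b (fun H hH => ?_)
  simp [h H hH]

theorem ht_P_or_le {x : ℝ} (hx : 0 < x) (A : Finset TV) (b : TV → ℤ) (K1 K2 : (TV → ℤ) → Prop) :
    htP x A b (fun H => K1 H ∨ K2 H) ≤ htP x A b K1 + htP x A b K2 := by
  classical
  unfold htP
  rw [← ht_E_add]
  refine ht_E_mono hx A b (fun H _ => ?_)
  by_cases h1 : K1 H <;> by_cases h2 : K2 H <;> simp [h1, h2]

theorem ht_P_true {x : ℝ} (hx : 0 < x) {A : Finset TV} {b h : TV → ℤ} (hh : HtAdm A b h) {K : (TV → ℤ) → Prop}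
    (hK : ∀ H, HtAdm A b H → K H) : htP x A b K = 1 := by
  classical
  unfold htP
  rw [ht_E_congr x A b (G2 := fun _ => 1) (fun H hH => by simp [hK H hH])]
  exact ht_E_const hx hh 1

theorem ht_P_not {x : ℝ} (hx : 0 < x) {A : Finset TV} {b h : TV → ℤ} (hh : HtAdm A b h) (K : (TV → ℤ) → Prop) :
    htP x A b (fun H => ¬ K H) = 1 - htP x A b K := by
  classical
  unfold htP
  rw [eq_sub_iff_add_eq, ← ht_E_add]
  refine Eq.trans (ht_E_congr x A b (fun H _ => ?_)) (ht_E_const hx hh 1)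
  by_cases h1 : K H <;> simp [h1]

/-- Markov's inequality -/
theorem ht_P_markov {x : ℝ} (hx : 0 < x) (A : Finset TV) (b : TV → ℤ) {G : (TV → ℤ) → ℝ} (hG : ∀ H, HtAdm A b H → 0 ≤ G H) {t : ℝ} (ht : 0 < t) :
    htP x A b (fun H => t ≤ G H) ≤ htE x A b G / t := by
  classical
  unfold htP
  rw [← ht_E_div_const]
  refine ht_E_mono hx A b (fun H hH => ?_)
  by_cases h1 : t ≤ G H
  · rw [if_pos h1, le_div_iff₀ ht]; linarith
  · rw [if_neg h1]; exact div_nonneg (hG H hH) ht.le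

/-- an observable bounded by `c` restricted to an event -/
theorem ht_E_ind_le {x : ℝ} (hx : 0 < x) (A : Finset TV) (b : TV → ℤ) (K : (TV → ℤ) → Prop) [DecidablePred K] {G : (TV → ℤ) → ℝ} {c : ℝ}
    (h : ∀ H, HtAdm A b H → K H → |G H| ≤ c) : |htE x A b (fun H => if K H then G H else 0)| ≤ c * htP x A b K := by
  classical
  unfold htP
  rw [← ht_E_smul]
  refine (ht_E_abs_le hx A b _).trans (ht_E_mono hx A b (fun H hH => ?_))
  by_cases h1 : K H
  · simp only [h1, if_true, mul_one]; exact h H hH h1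
  · simp [h1]

/-! ## 11. the boundary function only matters off `A`; DLR -/

theorem ht_adm_congr {A : Finset TV} {b b' : TV → ℤ} (hb : ∀ u, u ∉ A → b u = b' u) (h : TV → ℤ) : HtAdm A b h ↔ HtAdm A b' h := by
  unfold HtAdm
  refine and_congr_left (fun _ => forall_congr' fun u => imp_congr_right fun hu => by rw [hb u hu])

theorem ht_cfg_congr {A : Finset TV} {b b' : TV → ℤ} (hb : ∀ u, u ∉ A → b u = b' u) : htCfg A b = htCfg A b' := by
  ext h
  rw [ht_mem_cfg, ht_mem_cfg, ht_adm_congr hb]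

theorem ht_Z_congr (x : ℝ) {A : Finset TV} {b b' : TV → ℤ} (hb : ∀ u, u ∉ A → b u = b' u) : htZ x A b = htZ x A b' := by
  unfold htZ
  rw [ht_cfg_congr hb]

/-- the law depends on the boundary function only through its values off `A` -/
theorem ht_E_bc_congr (x : ℝ) {A : Finset TV} {b b' : TV → ℤ} (hb : ∀ u, u ∉ A → b u = b' u) (G : (TV → ℤ) → ℝ) :
    htE x A b G = htE x A b' G := by
  unfold htE
  rw [ht_cfg_congr hb, ht_Z_congr x hb]

theorem ht_adm_sub_self {A' A : Finset TV} (hA : A' ⊆ A) {b h : TV → ℤ} (hh : HtAdm A b h) : HtAdm A' h h :=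
  ⟨fun _ _ => rfl, fun u hu => hh.2 u (hA hu)⟩

theorem ht_adm_trans {A' A : Finset TV} (hA : A' ⊆ A) {b h g : TV → ℤ} (hh : HtAdm A b h) (hg : HtAdm A' h g) : HtAdm A b g := by
  refine ⟨fun u hu => by rw [hg.1 u (fun hc => hu (hA hc)), hh.1 u hu], fun u hu d hd => ?_⟩
  by_cases hu' : u ∈ A'
  · exact hg.2 u hu' d hd
  · by_cases hud : u + d ∈ A'
    · have := hg.2 (u + d) hud (-d) (lat_dirs_neg hd)
      rw [add_neg_cancel_right] at this
      rwa [abs_sub_comm]
    · rw [hg.1 u hu', hg.1 _ hud]; exact hh.2 u hu d hd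

theorem ht_adm_symm {A : Finset TV} {h g : TV → ℤ} (hh : HtAdm A h h) (hg : HtAdm A h g) : HtAdm A g h :=
  ⟨fun u hu => (hg.1 u hu).symm, hh.2⟩

theorem ht_latE_mono {A' A : Finset TV} (hA : A' ⊆ A) : latE A' ⊆ latE A := by
  intro p hp
  rw [lat_mem_E] at hp ⊢
  exact ⟨hp.1, hp.2.imp (fun h => hA h) (fun h => hA h)⟩

/-- the unequal edges meeting `A` = those meeting `A'` + the others -/
theorem ht_N_split {A' A : Finset TV} (hA : A' ⊆ A) (h : TV → ℤ) :
    htN A h = htN A' h + ∑ p ∈ latE A \ latE A', if h p.1 ≠ h (p.1 + p.2) then 1 else 0 := by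
  unfold htN
  rw [add_comm, Finset.sum_sdiff (ht_latE_mono hA)]

theorem ht_N_rest_congr (A' A : Finset TV) {g h : TV → ℤ} (hgh : ∀ u, u ∉ A' → g u = h u) :
    (∑ p ∈ latE A \ latE A', if g p.1 ≠ g (p.1 + p.2) then 1 else 0) = ∑ p ∈ latE A \ latE A', if h p.1 ≠ h (p.1 + p.2) then 1 else 0 := by
  refine Finset.sum_congr rfl (fun p hp => ?_)
  rw [Finset.mem_sdiff, lat_mem_E, lat_mem_E] at hp
  have h2 : p.1 ∉ A' ∧ p.1 + p.2 ∉ A' := by
    have := hp.2
    push Not at this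
    exact this hp.1.1
  rw [hgh _ h2.1, hgh _ h2.2]

/-- `htN A` only looks at `latCl A` -/
theorem ht_N_congr {A : Finset TV} {g h : TV → ℤ} (hgh : ∀ u ∈ latCl A, g u = h u) : htN A g = htN A h := by
  unfold htN
  refine Finset.sum_congr rfl (fun p hp => ?_)
  have hp' := lat_mem_E.1 hp
  have h1 : p.1 ∈ latCl A := by
    unfold latE at hp
    exact (Finset.mem_product.1 (Finset.mem_filter.1 hp).1).1
  have h2 : p.1 + p.2 ∈ latCl A := by
    rcases hp'.2 with h | h
    · exact lat_mem_cl.2 (Or.inr ⟨_, h, lat_adj_add _ (lat_pos_sub hp'.1)⟩)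
    · exact lat_mem_cl.2 (Or.inl h)
  rw [hgh _ h1, hgh _ h2]

/-- **DLR / the domain Markov property**: resampling the heights on `A' ⊆ A` preserves the law -/
theorem ht_dlr {x : ℝ} (hx : 0 < x) {A' A : Finset TV} (hA : A' ⊆ A) (b : TV → ℤ) (G : (TV → ℤ) → ℝ) :
    htE x A b G = htE x A b (fun h => htE x A' h G) := by
  set R : (TV → ℤ) → ℕ := fun h => ∑ p ∈ latE A \ latE A', if h p.1 ≠ h (p.1 + p.2) then 1 else 0 with hR
  have hw : ∀ h, htWt x A h = htWt x A' h * x ^ R h := fun h => by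
    unfold htWt
    rw [ht_N_split hA, pow_add]
  rw [ht_E_def x A b G, ht_E_def x A b (fun h => htE x A' h G)]
  congr 1
  symm
  calc ∑ h ∈ htCfg A b, htWt x A h * htE x A' h G
      = ∑ h ∈ htCfg A b, ∑ g ∈ htCfg A' h, htWt x A h * (htWt x A' g * G g) / htZ x A' h := by
        refine Finset.sum_congr rfl (fun h _ => ?_)
        rw [ht_E_def, Finset.sum_div, Finset.mul_sum]
        exact Finset.sum_congr rfl (fun g _ => by ring)
    _ = ∑ g ∈ htCfg A b, ∑ h ∈ htCfg A' g, htWt x A h * (htWt x A' g * G g) / htZ x A' h := by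
        refine Finset.sum_comm' (fun h g => ?_)
        simp only [ht_mem_cfg]
        constructor
        · rintro ⟨h1, h2⟩
          exact ⟨ht_adm_symm (ht_adm_sub_self hA h1) h2, ht_adm_trans hA h1 h2⟩
        · rintro ⟨h1, h2⟩
          exact ⟨ht_adm_trans hA h2 h1, ht_adm_symm (ht_adm_sub_self hA h2) h1⟩
    _ = ∑ g ∈ htCfg A b, ∑ h ∈ htCfg A' g, htWt x A' h * (htWt x A g * G g / htZ x A' g) := by
        refine Finset.sum_congr rfl (fun g _ => Finset.sum_congr rfl (fun h hh => ?_))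
        have h1 := (ht_mem_cfg.1 hh).1
        have e1 : R h = R g := ht_N_rest_congr A' A h1
        rw [hw h, hw g, e1, ht_Z_congr x h1]
        ring
    _ = ∑ g ∈ htCfg A b, htWt x A g * G g := by
        refine Finset.sum_congr rfl (fun g hg => ?_)
        rw [← Finset.sum_mul]
        have hZ : 0 < htZ x A' g := ht_Z_pos hx (ht_adm_sub_self hA (ht_mem_cfg.1 hg))
        change htZ x A' g * _ = _
        field_simp

/-- **DLR with a spectator**: `U` does not look at `A'` -/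
theorem ht_dlr_mul {x : ℝ} (hx : 0 < x) {A' A : Finset TV} (hA : A' ⊆ A) (b : TV → ℤ) {U : (TV → ℤ) → ℝ}
    (hU : ∀ g h : TV → ℤ, (∀ u, u ∉ A' → g u = h u) → U g = U h) (G : (TV → ℤ) → ℝ) :
    htE x A b (fun h => U h * G h) = htE x A b (fun h => U h * htE x A' h G) := by
  rw [ht_dlr hx hA b (fun h => U h * G h)]
  refine ht_E_congr x A b (fun h _ => ?_)
  rw [← ht_E_smul]
  exact ht_E_congr x A' h (fun g hg => by rw [hU g h hg.1])

/-- a local observable off `A` is deterministic -/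
theorem ht_E_off {x : ℝ} (hx : 0 < x) {A : Finset TV} {b h : TV → ℤ} (hh : HtAdm A b h) {U : (TV → ℤ) → ℝ}
    (hU : ∀ g h : TV → ℤ, (∀ u, u ∉ A → g u = h u) → U g = U h) : htE x A b U = U b := by
  rw [ht_E_congr x A b (G2 := fun _ => U b) (fun g hg => hU g b hg.1)]
  exact ht_E_const hx hh _

/-! ## 12. covariances -/

/-- transport of the law by a bijection of the configurations -/
theorem ht_E_transport (x : ℝ) {A A' : Finset TV} {b b' : TV → ℤ} (Φ : (TV → ℤ) ≃ (TV → ℤ))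
    (hadm : ∀ h, HtAdm A' b' (Φ h) ↔ HtAdm A b h) (hN : ∀ h, htN A' (Φ h) = htN A h) (G : (TV → ℤ) → ℝ) :
    htE x A' b' G = htE x A b (fun h => G (Φ h)) := by
  have key : ∀ G' : (TV → ℤ) → ℝ, ∑ h ∈ htCfg A b, htWt x A h * G' (Φ h) = ∑ h ∈ htCfg A' b', htWt x A' h * G' h := fun G' => by
    refine Finset.sum_equiv Φ (fun h => by rw [ht_mem_cfg, ht_mem_cfg, hadm]) (fun h _ => ?_)
    unfold htWt
    rw [hN]
  have hZ : htZ x A b = htZ x A' b' := by
    have := key (fun _ => 1)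
    simpa [htZ] using this
  rw [ht_E_def, ht_E_def, hZ, key]

/-- **shift of the heights by a constant** -/
theorem ht_E_shift (x : ℝ) (A : Finset TV) (b : TV → ℤ) (c : ℤ) (G : (TV → ℤ) → ℝ) :
    htE x A (fun u => b u + c) G = htE x A b (fun h => G (fun u => h u + c)) := by
  refine ht_E_transport x (Equiv.addRight (fun _ => c)) (fun h => ?_) (fun h => ?_) G
  · unfold HtAdm
    simp
  · unfold htN
    simp

/-- **height reflection** -/
theorem ht_E_neg (x : ℝ) (A : Finset TV) (b : TV → ℤ) (G : (TV → ℤ) → ℝ) :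
    htE x A (fun u => -b u) G = htE x A b (fun h => G (fun u => -h u)) := by
  refine ht_E_transport x (Equiv.neg _) (fun h => ?_) (fun h => ?_) G
  · unfold HtAdm
    refine and_congr (by simp) (forall_congr' fun u => imp_congr_right fun _ => forall_congr' fun d => imp_congr_right fun _ => ?_)
    have e : (Equiv.neg (TV → ℤ)) h (u + d) - (Equiv.neg (TV → ℤ)) h u = -(h (u + d) - h u) := by
      simp; ring
    rw [e, abs_neg]
  · unfold htN
    simp

/-- a gradient observable does not see a constant shift of the boundary function -/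
theorem ht_E_grad (x : ℝ) (A : Finset TV) (b : TV → ℤ) (c : ℤ) {G : (TV → ℤ) → ℝ} (hG : HtGrad G) :
    htE x A (fun u => b u + c) G = htE x A b G := by
  rw [ht_E_shift]
  exact ht_E_congr x A b (fun h _ => hG h c)

/-- odd observables have mean zero under zero boundary values -/
theorem ht_E_odd (x : ℝ) (A : Finset TV) {G : (TV → ℤ) → ℝ} (hG : ∀ h : TV → ℤ, G (fun u => -h u) = -G h) : htE x A 0 G = 0 := by
  have h1 := ht_E_neg x A 0 G
  simp_rw [hG] at h1
  rw [ht_E_neg_fun] at h1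
  have e : (fun u : TV => -(0 : TV → ℤ) u) = 0 := by funext u; simp
  rw [e] at h1
  linarith

/-! ### lattice automorphisms -/

theorem ht_cl_of_or {A : Finset TV} {u d : TV} (hd : d ∈ latDirs) (h : u ∈ A ∨ u + d ∈ A) : u ∈ latCl A ∧ u + d ∈ latCl A := by
  rcases h with h | h
  · exact ⟨lat_mem_cl.2 (Or.inl h), lat_mem_cl.2 (Or.inr ⟨_, h, lat_adj_add _ hd⟩)⟩
  · exact ⟨lat_mem_cl.2 (Or.inr ⟨_, h, lat_adj_symm (lat_adj_add _ hd)⟩), lat_mem_cl.2 (Or.inl h)⟩

/-- **the symmetric formula**: twice the number of unequal edges meeting `A` is a sum over ORDERED pairs `(u, u + d)`, `d` in the six directions -/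
theorem ht_N_two (A : Finset TV) (h : TV → ℤ) :
    2 * htN A h = ∑ u ∈ latCl A, ∑ d ∈ latDirs, if (u ∈ A ∨ u + d ∈ A) ∧ h u ≠ h (u + d) then 1 else 0 := by
  have hdisj : Disjoint latPos (latPos.image (fun d => -d)) := by decide
  have h1 : ∑ u ∈ latCl A, ∑ d ∈ latPos, (if (u ∈ A ∨ u + d ∈ A) ∧ h u ≠ h (u + d) then 1 else 0) = htN A h := by
    unfold htN latE
    rw [Finset.sum_filter, Finset.sum_product]
    refine Finset.sum_congr rfl (fun u _ => Finset.sum_congr rfl (fun d _ => ?_))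
    by_cases hc : u ∈ A ∨ u + d ∈ A
    · simp [hc]
    · simp [hc]
  have h2 : ∑ u ∈ latCl A, ∑ d ∈ latPos, (if (u ∈ A ∨ u + -d ∈ A) ∧ h u ≠ h (u + -d) then 1 else 0) = htN A h := by
    rw [← Finset.sum_product' (f := fun u d => if (u ∈ A ∨ u + -d ∈ A) ∧ h u ≠ h (u + -d) then 1 else 0)]
    have e : ∑ p ∈ latCl A ×ˢ latPos, (if (p.1 ∈ A ∨ p.1 + -p.2 ∈ A) ∧ h p.1 ≠ h (p.1 + -p.2) then 1 else 0)
        = ∑ p ∈ (latCl A ×ˢ latPos).filter (fun p => p.1 ∈ A ∨ p.1 + -p.2 ∈ A), if h p.1 ≠ h (p.1 + -p.2) then 1 else 0 := by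
      rw [Finset.sum_filter]
      refine Finset.sum_congr rfl (fun p _ => ?_)
      by_cases hc : p.1 ∈ A ∨ p.1 + -p.2 ∈ A
      · simp [hc]
      · simp [hc]
    rw [e]
    unfold htN
    refine Finset.sum_nbij' (fun p => (p.1 + -p.2, p.2)) (fun p => (p.1 + p.2, p.2)) ?_ ?_ ?_ ?_ ?_
    · intro p hp
      rw [Finset.mem_filter, Finset.mem_product] at hp
      rw [lat_mem_E]
      refine ⟨hp.1.2, ?_⟩
      simp only [neg_add_cancel_right]
      exact hp.2.symm
    · intro p hp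
      rw [lat_mem_E] at hp
      rw [Finset.mem_filter, Finset.mem_product]
      simp only [add_neg_cancel_right]
      exact ⟨⟨(ht_cl_of_or (lat_pos_sub hp.1) hp.2).2, hp.1⟩, hp.2.symm⟩
    · intro p _
      simp
    · intro p _
      simp
    · intro p _
      simp only [neg_add_cancel_right]
      by_cases hc : h p.1 = h (p.1 + -p.2)
      · simp [hc]
      · rw [if_pos hc, if_pos (fun h' => hc h'.symm)]
  have h3 : ∀ u, ∑ d ∈ latDirs, (if (u ∈ A ∨ u + d ∈ A) ∧ h u ≠ h (u + d) then 1 else 0)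
      = ∑ d ∈ latPos, (if (u ∈ A ∨ u + d ∈ A) ∧ h u ≠ h (u + d) then 1 else 0)
        + ∑ d ∈ latPos, (if (u ∈ A ∨ u + -d ∈ A) ∧ h u ≠ h (u + -d) then 1 else 0) := fun u => by
    rw [lat_dirs_eq, Finset.sum_union hdisj, Finset.sum_image (fun a _ b _ hab => neg_injective hab)]
  simp_rw [h3]
  rw [Finset.sum_add_distrib, h1, h2]
  ring

/-- the linear part of an affine lattice automorphism permutes the six directions -/
theorem ht_aut_dirs {T L : TV → TV} (hT : Function.Injective T) (hTL : ∀ u d, T (u + d) = T u + L d) (hL : ∀ d ∈ latDirs, L d ∈ latDirs) :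
    latDirs.image L = latDirs := by
  have hinj : Function.Injective L := by
    intro d d' hdd
    apply hT
    have h1 := hTL 0 d
    have h2 := hTL 0 d'
    rw [zero_add] at h1 h2
    rw [h1, h2, hdd]
  refine Finset.eq_of_subset_of_card_le (fun e he => ?_) ?_
  · obtain ⟨d, hd, rfl⟩ := Finset.mem_image.1 he
    exact hL d hd
  · rw [Finset.card_image_of_injective _ hinj]

theorem ht_aut_adj {T L : TV → TV} (hT : Function.Injective T) (hTL : ∀ u d, T (u + d) = T u + L d) (hL : ∀ d ∈ latDirs, L d ∈ latDirs)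
    (u v : TV) : triAdj (T u) (T v) ↔ triAdj u v := by
  rw [lat_adj_iff, lat_adj_iff]
  have e : T v - T u = L (v - u) := by
    have := hTL u (v - u)
    rw [add_sub_cancel] at this
    rw [this]; abel
  rw [e]
  constructor
  · intro h
    rw [← ht_aut_dirs hT hTL hL] at h
    obtain ⟨d, hd, hdd⟩ := Finset.mem_image.1 h
    have hinj : T (u + d) = T (u + (v - u)) := by rw [hTL, hTL, hdd]
    have := hT hinj
    have e2 : d = v - u := add_left_cancel this
    rwa [← e2]
  · exact hL _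

theorem ht_aut_cl {T L : TV → TV} (hT : Function.Bijective T) (hTL : ∀ u d, T (u + d) = T u + L d) (hL : ∀ d ∈ latDirs, L d ∈ latDirs)
    (A : Finset TV) : latCl (A.image T) = (latCl A).image T := by
  ext w
  obtain ⟨u, rfl⟩ := hT.2 w
  rw [lat_mem_cl, hT.1.mem_finset_image, hT.1.mem_finset_image, lat_mem_cl]
  refine or_congr_right ⟨?_, ?_⟩
  · rintro ⟨v', hv', hadj⟩
    obtain ⟨v, hv, rfl⟩ := Finset.mem_image.1 hv'
    exact ⟨v, hv, (ht_aut_adj hT.1 hTL hL v u).1 hadj⟩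
  · rintro ⟨v, hv, hadj⟩
    exact ⟨T v, Finset.mem_image_of_mem T hv, (ht_aut_adj hT.1 hTL hL v u).2 hadj⟩

theorem ht_aut_N {T L : TV → TV} (hT : Function.Bijective T) (hTL : ∀ u d, T (u + d) = T u + L d) (hL : ∀ d ∈ latDirs, L d ∈ latDirs)
    (A : Finset TV) (h : TV → ℤ) : htN (A.image T) h = htN A (fun u => h (T u)) := by
  have key : 2 * htN (A.image T) h = 2 * htN A (fun u => h (T u)) := by
    rw [ht_N_two, ht_N_two, ht_aut_cl hT hTL hL, Finset.sum_image (fun a _ b _ hab => hT.1 hab)]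
    refine Finset.sum_congr rfl (fun u _ => ?_)
    have hLinj : Set.InjOn L latDirs := by
      intro d _ d' _ hdd
      apply hT.1
      have h1 := hTL 0 d
      have h2 := hTL 0 d'
      rw [zero_add] at h1 h2
      rw [h1, h2, hdd]
    conv_lhs => rw [← ht_aut_dirs hT.1 hTL hL]
    rw [Finset.sum_image hLinj]
    refine Finset.sum_congr rfl (fun d _ => ?_)
    rw [← hTL]
    simp only [hT.1.mem_finset_image]
  omega

theorem ht_aut_adm {T L : TV → TV} (hT : Function.Bijective T) (hTL : ∀ u d, T (u + d) = T u + L d) (hL : ∀ d ∈ latDirs, L d ∈ latDirs)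
    (A : Finset TV) (b h : TV → ℤ) : HtAdm A (fun u => b (T u)) (fun u => h (T u)) ↔ HtAdm (A.image T) b h := by
  constructor
  · rintro ⟨h0, h1⟩
    refine ⟨fun w hw => ?_, fun w hw e he => ?_⟩
    · obtain ⟨u, rfl⟩ := hT.2 w
      rw [hT.1.mem_finset_image] at hw
      exact h0 u hw
    · obtain ⟨u, hu, rfl⟩ := Finset.mem_image.1 hw
      rw [← ht_aut_dirs hT.1 hTL hL] at he
      obtain ⟨d, hd, rfl⟩ := Finset.mem_image.1 he
      have := h1 u hu d hd
      simp only [hTL] at this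
      exact this
  · rintro ⟨h0, h1⟩
    refine ⟨fun u hu => h0 (T u) (by rwa [hT.1.mem_finset_image]), fun u hu d hd => ?_⟩
    have := h1 (T u) (Finset.mem_image_of_mem T hu) (L d) (hL d hd)
    rwa [← hTL] at this

/-- **covariance under an affine lattice automorphism** `T` with linear part `L` -/
theorem ht_E_aut (x : ℝ) {T L : TV → TV} (hT : Function.Bijective T) (hTL : ∀ u d, T (u + d) = T u + L d) (hL : ∀ d ∈ latDirs, L d ∈ latDirs)
    (A : Finset TV) (b : TV → ℤ) (G : (TV → ℤ) → ℝ) :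
    htE x (A.image T) b (fun h => G (fun u => h (T u))) = htE x A (fun u => b (T u)) G := by
  symm
  refine ht_E_transport x ((Equiv.ofBijective T hT).arrowCongr (Equiv.refl ℤ)).symm (fun h => ?_) (fun h => ?_) G
  · exact ht_aut_adm hT hTL hL A b h
  · exact (ht_aut_N hT hTL hL A h).symm

/-- **translation covariance** -/
theorem ht_E_trans (x : ℝ) (a : TV) (A : Finset TV) (b : TV → ℤ) (G : (TV → ℤ) → ℝ) :
    htE x (A.image (· + a)) b (fun h => G (fun u => h (u + a))) = htE x A (fun u => b (u + a)) G :=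
  ht_E_aut x (T := (· + a)) (L := id) (Equiv.addRight a).bijective (fun u d => by simp only [id]; abel) (fun d hd => hd) A b G

theorem ht_rot_bij : Function.Bijective latRot :=
  ⟨fun u v huv => by rw [← lat_rot_six u, ← lat_rot_six v, huv], fun u => ⟨_, lat_rot_six u⟩⟩

theorem ht_refl_bij : Function.Bijective latRefl :=
  ⟨fun u v huv => by rw [← lat_refl_refl u, ← lat_refl_refl v, huv], fun u => ⟨_, lat_refl_refl u⟩⟩

/-- **rotation covariance** -/
theorem ht_E_rot (x : ℝ) (A : Finset TV) (b : TV → ℤ) (G : (TV → ℤ) → ℝ) :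
    htE x (A.image latRot) b (fun h => G (fun u => h (latRot u))) = htE x A (fun u => b (latRot u)) G :=
  ht_E_aut x ht_rot_bij lat_rot_add (fun _ hd => lat_rot_dirs hd) A b G

/-- **reflection covariance** -/
theorem ht_E_refl (x : ℝ) (A : Finset TV) (b : TV → ℤ) (G : (TV → ℤ) → ℝ) :
    htE x (A.image latRefl) b (fun h => G (fun u => h (latRefl u))) = htE x A (fun u => b (latRefl u)) G :=
  ht_E_aut x ht_refl_bij lat_refl_add (fun _ hd => lat_refl_dirs hd) A b G

/-- **point reflection** -/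
theorem ht_E_pt (x : ℝ) (A : Finset TV) (b : TV → ℤ) (G : (TV → ℤ) → ℝ) :
    htE x (A.image (fun u => -u)) b (fun h => G (fun u => h (-u))) = htE x A (fun u => b (-u)) G :=
  ht_E_aut x (T := fun u => -u) (L := fun u => -u) (Equiv.neg TV).bijective (fun u d => neg_add u d) (fun _ hd => lat_dirs_neg hd) A b G

/-! ### the hexagons are invariant -/

theorem ht_N_rot (u : TV) : latN (latRot u) = latN u := by
  unfold latN latRot
  simp only
  omega

theorem ht_N_refl (u : TV) : latN (latRefl u) = latN u := by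
  unfold latN latRefl
  simp only
  omega

theorem ht_ball_trans (c a : TV) (r : ℕ) : (latBall c r).image (· + a) = latBall (c + a) r := by
  ext w
  rw [Finset.mem_image, lat_mem_ball]
  constructor
  · rintro ⟨u, hu, rfl⟩
    rw [lat_mem_ball] at hu
    rwa [add_sub_add_right_eq_sub]
  · intro h
    refine ⟨w - a, ?_, by simp⟩
    rw [lat_mem_ball]
    have e : w - a - c = w - (c + a) := by abel
    rwa [e]

theorem ht_ball_rot (r : ℕ) : (latBall 0 r).image latRot = latBall 0 r := by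
  ext w
  obtain ⟨u, rfl⟩ := ht_rot_bij.2 w
  rw [ht_rot_bij.1.mem_finset_image, lat_mem_ball, lat_mem_ball, sub_zero, sub_zero, ht_N_rot]

theorem ht_ball_refl (r : ℕ) : (latBall 0 r).image latRefl = latBall 0 r := by
  ext w
  obtain ⟨u, rfl⟩ := ht_refl_bij.2 w
  rw [ht_refl_bij.1.mem_finset_image, lat_mem_ball, lat_mem_ball, sub_zero, sub_zero, ht_N_refl]

theorem ht_E_ball_rot (x : ℝ) (r : ℕ) (G : (TV → ℤ) → ℝ) :
    htE x (latBall 0 r) 0 (fun h => G (fun u => h (latRot u))) = htE x (latBall 0 r) 0 G := by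
  have := ht_E_rot x (latBall 0 r) 0 G
  rwa [ht_ball_rot] at this

theorem ht_E_ball_refl (x : ℝ) (r : ℕ) (G : (TV → ℤ) → ℝ) :
    htE x (latBall 0 r) 0 (fun h => G (fun u => h (latRefl u))) = htE x (latBall 0 r) 0 G := by
  have := ht_E_refl x (latBall 0 r) 0 G
  rwa [ht_ball_refl] at this

theorem ht_E_ball_trans (x : ℝ) (c a : TV) (r : ℕ) (G : (TV → ℤ) → ℝ) :
    htE x (latBall (c + a) r) 0 (fun h => G (fun u => h (u + a))) = htE x (latBall c r) 0 G := by
  have := ht_E_trans x a (latBall c r) 0 G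
  rwa [ht_ball_trans] at this

/-! ## 13. the smeared field; THE TOP EXIT in the vocabulary of `Defs/Ht` -/

theorem ht_sm_def (δ : ℝ) (F : Finset TV) (f : ℝ × ℝ → ℝ) (h : TV → ℤ) : htSm δ F f h = ∑ u ∈ latInt F, latW δ f u * (h u : ℝ) := rfl

theorem ht_sm_neg (δ : ℝ) (F : Finset TV) (f : ℝ × ℝ → ℝ) (h : TV → ℤ) : htSm δ F f (fun u => -h u) = -htSm δ F f h := by
  rw [ht_sm_def, ht_sm_def, ← Finset.sum_neg_distrib]
  exact Finset.sum_congr rfl (fun u _ => by push_cast; ring)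

/-- the odd moments of the smeared field vanish exactly -/
theorem ht_fz_odd (x δ : ℝ) (F : Finset TV) (f : ℝ × ℝ → ℝ) (j : ℕ) : htFz x F (fun h => htSm δ F f h ^ (2 * j + 1)) = 0 := by
  unfold htFz
  refine ht_E_odd x _ (fun h => ?_)
  rw [ht_sm_neg, Odd.neg_pow ⟨j, rfl⟩]

/-- the Wick numbers scale: `W (v/σ²) k = W v k / σ^k` -/
theorem ht_wick_scale (v : ℝ) {σ : ℝ} (hσ : σ ≠ 0) (k : ℕ) : tmmWick (v / σ ^ 2) k = tmmWick v k / σ ^ k := by
  have key : ∀ k, tmmWick (v / σ ^ 2) k = tmmWick v k / σ ^ k ∧ tmmWick (v / σ ^ 2) (k + 1) = tmmWick v (k + 1) / σ ^ (k + 1) := by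
    intro k
    induction k with
    | zero => exact ⟨by simp [tmm_wick_zero], by simp [tmm_wick_one]⟩
    | succ k ih =>
      refine ⟨ih.2, ?_⟩
      rw [tmm_wick_succ, tmm_wick_succ, ih.1]
      field_simp
      ring
  exact (key k).1

/-- the moments of the frozen law -/
theorem ht_bridge_pow (x δ σ : ℝ) (F : Finset TV) (f : ℝ × ℝ → ℝ) (k : ℕ) :
    lipschitzExpect x δ σ F f (fun t => t ^ k) = htFz x F (fun h => htSm δ F f h ^ k) / σ ^ k := by
  rw [ht_bridge]
  unfold htFz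
  rw [← ht_E_div_const]
  exact ht_E_congr x _ _ (fun h _ => by rw [div_pow])

/-- **THE TOP EXIT (unnormalised method of moments)**: `E h(f)^k → W (σ² v) k` for all `k` gives the frozen conclusion with the variance `v` -/
theorem ht_top {x : ℝ} (hx : 0 < x) {σ : ℝ} (hσ : 0 < σ) (δ : ℕ → ℝ) (F : ℕ → Finset TV) (f : ℝ × ℝ → ℝ) (v : ℝ)
    (hmom : ∀ k : ℕ, Tendsto (fun n => htFz x (F n) (fun h => htSm (δ n) (F n) f h ^ k)) atTop (𝓝 (tmmWick (σ ^ 2 * v) k))) (φ : ℝ →ᵇ ℝ) :
    Tendsto (fun n => lipschitzExpect x (δ n) σ (F n) f φ) atTop (𝓝 (∫ t, φ t ∂gaussianReal 0 v.toNNReal)) := by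
  refine tmm_top hx σ δ F f v (fun k => ?_) φ
  simp_rw [ht_bridge_pow]
  have e : tmmWick v k = tmmWick (σ ^ 2 * v) k / σ ^ k := by
    rw [← ht_wick_scale (σ ^ 2 * v) hσ.ne' k]
    congr 1
    field_simp
  rw [e]
  exact (hmom k).div_const _

/-- only the EVEN moments have to be controlled -/
theorem ht_top_even {x : ℝ} (hx : 0 < x) {σ : ℝ} (hσ : 0 < σ) (δ : ℕ → ℝ) (F : ℕ → Finset TV) (f : ℝ × ℝ → ℝ) (v : ℝ)
    (hmom : ∀ j : ℕ, Tendsto (fun n => htFz x (F n) (fun h => htSm (δ n) (F n) f h ^ (2 * j))) atTop (𝓝 (tmmWick (σ ^ 2 * v) (2 * j))))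
    (φ : ℝ →ᵇ ℝ) :
    Tendsto (fun n => lipschitzExpect x (δ n) σ (F n) f φ) atTop (𝓝 (∫ t, φ t ∂gaussianReal 0 v.toNNReal)) := by
  refine ht_top hx hσ δ F f v (fun k => ?_) φ
  rcases Nat.even_or_odd' k with ⟨j, rfl | rfl⟩
  · exact hmom j
  · simp_rw [ht_fz_odd, tmm_wick_odd]
    exact tendsto_const_nhds

end

end Claimed.Agent.R291
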