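import Claimed.Agent.R291.Ht.Basic
import Claimed.Agent.R291.Defs.Lim
import Claimed.Agent.R291.Geo.Hex

/-!
# Row 291 (S0539), Ht/Sm : THE SMEARED FIELD AS A FUNCTION OF THE TEST      (owner helper168; prefix `ht_`)      complete (0 sorry)

[FRZ] (d) of the note of helper181 (`X_n` linear in the test) and the multilinear algebra of the mixed moments `limM`.  TEX: 07-limit, l.1-60.
* face weights `latW`:    `ht_w_add/sub/smul/neg/sum/zero/congr/nonneg/mono/abs_le`, `ht_w_eq_zero` (the test vanishes on the face)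
* `latPair`, `htSm`:      `ht_pair_*`, `ht_sm_*`: linear in the test (`Integrable` hypotheses only for sums), additive in the height, monotone in the height for a test `≥ 0`
                          (`ht_sm_mono : HtMono (htSm δ F f)`), `ht_sm_abs_le`, constant shift `ht_pair_shift`
* mixed moments `limM`:   `ht_limM_update_add/smul`, `ht_limM_perm` (symmetric), `ht_limM_odd` (vanishes for an odd number of factors), `ht_limM_const` (= moments), `ht_limM_zero`
* `ht_test_integrable`    tests (`WkTest`) are integrable; `ht_sm_eq_pair` (`htSm` = `latPair` over any finite set covering the support)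
* **`ht_lim_mom_of_out`** `LimOut x v` ⟹ the body of the contract `exit_lim_mom`
-/

set_option autoImplicit false

namespace Claimed.Agent.R291

open Claims.C0467 MeasureTheory ProbabilityTheory Filter Topology BoundedContinuousFunction

noncomputable section

/-! ## 1. face weights -/

theorem ht_w_def (δ : ℝ) (f : ℝ × ℝ → ℝ) (u : TV) : latW δ f u = ∫ z in hexFace δ u, f z := rfl

theorem ht_w_add (δ : ℝ) {f g : ℝ × ℝ → ℝ} (hf : Integrable f) (hg : Integrable g) (u : TV) :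
    latW δ (fun y => f y + g y) u = latW δ f u + latW δ g u :=
  integral_add hf.integrableOn hg.integrableOn

theorem ht_w_sub (δ : ℝ) {f g : ℝ × ℝ → ℝ} (hf : Integrable f) (hg : Integrable g) (u : TV) :
    latW δ (fun y => f y - g y) u = latW δ f u - latW δ g u :=
  integral_sub hf.integrableOn hg.integrableOn

theorem ht_w_smul (δ c : ℝ) (f : ℝ × ℝ → ℝ) (u : TV) : latW δ (fun y => c * f y) u = c * latW δ f u :=
  integral_const_mul c _

theorem ht_w_neg (δ : ℝ) (f : ℝ × ℝ → ℝ) (u : TV) : latW δ (fun y => -f y) u = -latW δ f u :=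
  integral_neg _

theorem ht_w_zero (δ : ℝ) (u : TV) : latW δ (fun _ => 0) u = 0 := by
  rw [ht_w_def]; simp

theorem ht_w_sum (δ : ℝ) {ι : Type*} (s : Finset ι) {f : ι → ℝ × ℝ → ℝ} (hf : ∀ i ∈ s, Integrable (f i)) (u : TV) :
    latW δ (fun y => ∑ i ∈ s, f i y) u = ∑ i ∈ s, latW δ (f i) u :=
  integral_finsetSum s (fun i hi => (hf i hi).integrableOn)

theorem ht_w_nonneg (δ : ℝ) {f : ℝ × ℝ → ℝ} (hf : ∀ y, 0 ≤ f y) (u : TV) : 0 ≤ latW δ f u :=
  integral_nonneg hf

theorem ht_w_mono (δ : ℝ) {f g : ℝ × ℝ → ℝ} (hf : Integrable f) (hg : Integrable g) (h : ∀ y, f y ≤ g y) (u : TV) : latW δ f u ≤ latW δ g u :=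
  integral_mono hf.integrableOn hg.integrableOn h

theorem ht_w_abs_le (δ : ℝ) (f : ℝ × ℝ → ℝ) (u : TV) : |latW δ f u| ≤ latW δ (fun y => |f y|) u :=
  abs_integral_le_integral_abs

/-- only the values on the face matter -/
theorem ht_w_congr (δ : ℝ) {f g : ℝ × ℝ → ℝ} (u : TV) (h : ∀ y ∈ hexFace δ u, f y = g y) : latW δ f u = latW δ g u :=
  setIntegral_congr_fun (hg_measurableSet_hexFace δ u) h

theorem ht_w_eq_zero (δ : ℝ) {f : ℝ × ℝ → ℝ} (u : TV) (h : ∀ y ∈ hexFace δ u, f y = 0) : latW δ f u = 0 := by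
  rw [ht_w_congr δ u h, ht_w_zero]

/-! ## 2. `latPair` -/

theorem ht_pair_def (δ : ℝ) (f : ℝ × ℝ → ℝ) (A : Finset TV) (h : TV → ℤ) : latPair δ f A h = ∑ u ∈ A, latW δ f u * (h u : ℝ) := rfl

theorem ht_pair_add (δ : ℝ) {f g : ℝ × ℝ → ℝ} (hf : Integrable f) (hg : Integrable g) (A : Finset TV) (h : TV → ℤ) :
    latPair δ (fun y => f y + g y) A h = latPair δ f A h + latPair δ g A h := by
  simp only [ht_pair_def, ht_w_add δ hf hg, add_mul, Finset.sum_add_distrib]

theorem ht_pair_sub (δ : ℝ) {f g : ℝ × ℝ → ℝ} (hf : Integrable f) (hg : Integrable g) (A : Finset TV) (h : TV → ℤ) :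
    latPair δ (fun y => f y - g y) A h = latPair δ f A h - latPair δ g A h := by
  simp only [ht_pair_def, ht_w_sub δ hf hg, sub_mul, Finset.sum_sub_distrib]

theorem ht_pair_smul (δ c : ℝ) (f : ℝ × ℝ → ℝ) (A : Finset TV) (h : TV → ℤ) :
    latPair δ (fun y => c * f y) A h = c * latPair δ f A h := by
  simp only [ht_pair_def, ht_w_smul, mul_assoc, Finset.mul_sum]

theorem ht_pair_neg (δ : ℝ) (f : ℝ × ℝ → ℝ) (A : Finset TV) (h : TV → ℤ) : latPair δ (fun y => -f y) A h = -latPair δ f A h := by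
  simp only [ht_pair_def, ht_w_neg, neg_mul, Finset.sum_neg_distrib]

theorem ht_pair_zero (δ : ℝ) (A : Finset TV) (h : TV → ℤ) : latPair δ (fun _ => 0) A h = 0 := by
  simp only [ht_pair_def, ht_w_zero, zero_mul, Finset.sum_const_zero]

theorem ht_pair_sum (δ : ℝ) {ι : Type*} (s : Finset ι) {f : ι → ℝ × ℝ → ℝ} (hf : ∀ i ∈ s, Integrable (f i)) (A : Finset TV) (h : TV → ℤ) :
    latPair δ (fun y => ∑ i ∈ s, f i y) A h = ∑ i ∈ s, latPair δ (f i) A h := by
  simp only [ht_pair_def, ht_w_sum δ s hf, Finset.sum_mul]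
  exact Finset.sum_comm

/-- additive in the height -/
theorem ht_pair_h_add (δ : ℝ) (f : ℝ × ℝ → ℝ) (A : Finset TV) (h g : TV → ℤ) :
    latPair δ f A (fun u => h u + g u) = latPair δ f A h + latPair δ f A g := by
  simp only [ht_pair_def, Int.cast_add, mul_add, Finset.sum_add_distrib]

theorem ht_pair_h_sub (δ : ℝ) (f : ℝ × ℝ → ℝ) (A : Finset TV) (h g : TV → ℤ) :
    latPair δ f A (fun u => h u - g u) = latPair δ f A h - latPair δ f A g := by
  simp only [ht_pair_def, Int.cast_sub, mul_sub, Finset.sum_sub_distrib]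

theorem ht_pair_h_neg (δ : ℝ) (f : ℝ × ℝ → ℝ) (A : Finset TV) (h : TV → ℤ) : latPair δ f A (fun u => -h u) = -latPair δ f A h := by
  simp only [ht_pair_def, Int.cast_neg, mul_neg, Finset.sum_neg_distrib]

/-- a constant shift of the height moves the pairing by the total weight -/
theorem ht_pair_shift (δ : ℝ) (f : ℝ × ℝ → ℝ) (A : Finset TV) (h : TV → ℤ) (c : ℤ) :
    latPair δ f A (fun u => h u + c) = latPair δ f A h + (c : ℝ) * ∑ u ∈ A, latW δ f u := by
  simp only [ht_pair_def, Int.cast_add, mul_add, Finset.sum_add_distrib, Finset.mul_sum]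
  congr 1
  exact Finset.sum_congr rfl (fun u _ => mul_comm _ _)

/-- zero total weight: a gradient observable -/
theorem ht_pair_grad (δ : ℝ) (f : ℝ × ℝ → ℝ) (A : Finset TV) (h0 : ∑ u ∈ A, latW δ f u = 0) : HtGrad (latPair δ f A) := by
  intro h c
  rw [ht_pair_shift, h0, mul_zero, add_zero]

theorem ht_pair_loc (δ : ℝ) (f : ℝ × ℝ → ℝ) (A : Finset TV) : HtLoc A (latPair δ f A) := by
  intro h h' hh
  rw [ht_pair_def, ht_pair_def]
  exact Finset.sum_congr rfl (fun u hu => by rw [hh u hu])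

/-- monotone in the height for a nonnegative test -/
theorem ht_pair_mono (δ : ℝ) {f : ℝ × ℝ → ℝ} (hf : ∀ y, 0 ≤ f y) (A : Finset TV) : HtMono (latPair δ f A) := by
  intro h h' hh
  rw [ht_pair_def, ht_pair_def]
  exact Finset.sum_le_sum (fun u _ => mul_le_mul_of_nonneg_left (by exact_mod_cast hh u) (ht_w_nonneg δ hf u))

/-- the faces on which the test vanishes do not count -/
theorem ht_pair_subset (δ : ℝ) {f : ℝ × ℝ → ℝ} {A B : Finset TV} (hAB : A ⊆ B) (h0 : ∀ u ∈ B, u ∉ A → ∀ y ∈ hexFace δ u, f y = 0) (h : TV → ℤ) :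
    latPair δ f A h = latPair δ f B h := by
  rw [ht_pair_def, ht_pair_def]
  refine Finset.sum_subset hAB (fun u hu hn => ?_)
  rw [ht_w_eq_zero δ u (h0 u hu hn), zero_mul]

theorem ht_pair_abs_le (δ : ℝ) (f : ℝ × ℝ → ℝ) (A : Finset TV) (h : TV → ℤ) :
    |latPair δ f A h| ≤ latPair δ (fun y => |f y|) A (fun u => |h u|) := by
  rw [ht_pair_def, ht_pair_def]
  refine (Finset.abs_sum_le_sum_abs _ _).trans (Finset.sum_le_sum (fun u _ => ?_))
  rw [abs_mul, Int.cast_abs]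
  exact mul_le_mul_of_nonneg_right (ht_w_abs_le δ f u) (abs_nonneg _)

/-! ## 3. `htSm` -/

theorem ht_sm_add (δ : ℝ) (F : Finset TV) {f g : ℝ × ℝ → ℝ} (hf : Integrable f) (hg : Integrable g) (h : TV → ℤ) :
    htSm δ F (fun y => f y + g y) h = htSm δ F f h + htSm δ F g h := ht_pair_add δ hf hg _ h

theorem ht_sm_sub (δ : ℝ) (F : Finset TV) {f g : ℝ × ℝ → ℝ} (hf : Integrable f) (hg : Integrable g) (h : TV → ℤ) :
    htSm δ F (fun y => f y - g y) h = htSm δ F f h - htSm δ F g h := ht_pair_sub δ hf hg _ h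

theorem ht_sm_smul (δ c : ℝ) (F : Finset TV) (f : ℝ × ℝ → ℝ) (h : TV → ℤ) : htSm δ F (fun y => c * f y) h = c * htSm δ F f h :=
  ht_pair_smul δ c f _ h

theorem ht_sm_neg_fun (δ : ℝ) (F : Finset TV) (f : ℝ × ℝ → ℝ) (h : TV → ℤ) : htSm δ F (fun y => -f y) h = -htSm δ F f h :=
  ht_pair_neg δ f _ h

theorem ht_sm_zero (δ : ℝ) (F : Finset TV) (h : TV → ℤ) : htSm δ F (fun _ => 0) h = 0 := ht_pair_zero δ _ h

theorem ht_sm_sum (δ : ℝ) (F : Finset TV) {ι : Type*} (s : Finset ι) {f : ι → ℝ × ℝ → ℝ} (hf : ∀ i ∈ s, Integrable (f i)) (h : TV → ℤ) :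
    htSm δ F (fun y => ∑ i ∈ s, f i y) h = ∑ i ∈ s, htSm δ F (f i) h := ht_pair_sum δ s hf _ h

theorem ht_sm_mono (δ : ℝ) (F : Finset TV) {f : ℝ × ℝ → ℝ} (hf : ∀ y, 0 ≤ f y) : HtMono (htSm δ F f) := ht_pair_mono δ hf _

theorem ht_sm_loc (δ : ℝ) (F : Finset TV) (f : ℝ × ℝ → ℝ) : HtLoc (latInt F) (htSm δ F f) := ht_pair_loc δ f _

theorem ht_sm_h_sub (δ : ℝ) (F : Finset TV) (f : ℝ × ℝ → ℝ) (h g : TV → ℤ) :
    htSm δ F f (fun u => h u - g u) = htSm δ F f h - htSm δ F f g := ht_pair_h_sub δ f _ h g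

theorem ht_sm_h_add (δ : ℝ) (F : Finset TV) (f : ℝ × ℝ → ℝ) (h g : TV → ℤ) :
    htSm δ F f (fun u => h u + g u) = htSm δ F f h + htSm δ F f g := ht_pair_h_add δ f _ h g

theorem ht_sm_abs_le (δ : ℝ) (F : Finset TV) (f : ℝ × ℝ → ℝ) (h : TV → ℤ) : |htSm δ F f h| ≤ htSm δ F (fun y => |f y|) (fun u => |h u|) :=
  ht_pair_abs_le δ f _ h

/-- `htSm` as a pairing over ANY finite set `S` containing the faces of `latInt F` which meet the support, on heights vanishing off `latInt F` -/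
theorem ht_sm_eq_pair (δ : ℝ) (F : Finset TV) {f : ℝ × ℝ → ℝ} {S : Finset TV} (hS : ∀ u ∈ latInt F, u ∉ S → ∀ y ∈ hexFace δ u, f y = 0)
    {h : TV → ℤ} (h0 : ∀ u, u ∉ latInt F → h u = 0) : htSm δ F f h = latPair δ f S h := by
  classical
  have e1 : htSm δ F f h = latPair δ f (latInt F ∩ S) h := by
    refine (ht_pair_subset δ Finset.inter_subset_left (fun u hu hn => hS u hu (fun hc => hn (Finset.mem_inter.2 ⟨hu, hc⟩))) h).symm
  rw [e1, ht_pair_def, ht_pair_def]
  refine Finset.sum_subset Finset.inter_subset_right (fun u hu hn => ?_)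
  rw [h0 u (fun hc => hn (Finset.mem_inter.2 ⟨hc, hu⟩))]
  simp

/-- tests are integrable -/
theorem ht_test_integrable {O : Set (ℝ × ℝ)} {g : ℝ × ℝ → ℝ} (hg : WkTest O g) : Integrable g :=
  hg.cont.integrable_of_hasCompactSupport hg.comp

/-! ## 4. the mixed moments `limM` -/

theorem ht_limM_def (x δ : ℝ) (F : Finset TV) {j : ℕ} (g : Fin j → ℝ × ℝ → ℝ) :
    limM x δ F g = htFz x F fun h => ∏ i, htSm δ F (g i) h := rfl

theorem ht_fz_def (x : ℝ) (F : Finset TV) (G : (TV → ℤ) → ℝ) : htFz x F G = htE x (latInt F) 0 G := rfl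

theorem ht_prod_update (δ : ℝ) (F : Finset TV) {j : ℕ} (g : Fin j → ℝ × ℝ → ℝ) (i : Fin j) (φ : ℝ × ℝ → ℝ) (h : TV → ℤ) :
    ∏ k, htSm δ F (Function.update g i φ k) h = htSm δ F φ h * ∏ k ∈ Finset.univ \ {i}, htSm δ F (g k) h := by
  have e : (fun k => htSm δ F (Function.update g i φ k) h) = Function.update (fun k => htSm δ F (g k) h) i (htSm δ F φ h) := by
    funext k
    by_cases hk : k = i
    · subst hk; simp
    · simp [hk]
  have := Finset.prod_update_of_mem (Finset.mem_univ i) (fun k => htSm δ F (g k) h) (htSm δ F φ h)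
  rw [← e] at this
  exact this

/-- one slot singled out -/
theorem ht_limM_update (x δ : ℝ) (F : Finset TV) {j : ℕ} (g : Fin j → ℝ × ℝ → ℝ) (i : Fin j) (φ : ℝ × ℝ → ℝ) :
    limM x δ F (Function.update g i φ) = htFz x F fun h => htSm δ F φ h * ∏ k ∈ Finset.univ \ {i}, htSm δ F (g k) h := by
  rw [ht_limM_def]
  congr 1
  funext h
  exact ht_prod_update δ F g i φ h

theorem ht_limM_update_add (x δ : ℝ) (F : Finset TV) {j : ℕ} (g : Fin j → ℝ × ℝ → ℝ) (i : Fin j) {f f' : ℝ × ℝ → ℝ}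
    (hf : Integrable f) (hf' : Integrable f') :
    limM x δ F (Function.update g i fun y => f y + f' y) = limM x δ F (Function.update g i f) + limM x δ F (Function.update g i f') := by
  simp only [ht_limM_update, ht_fz_def]
  rw [← ht_E_add]
  exact ht_E_congr x _ _ (fun h _ => by rw [ht_sm_add δ F hf hf', add_mul])

theorem ht_limM_update_sub (x δ : ℝ) (F : Finset TV) {j : ℕ} (g : Fin j → ℝ × ℝ → ℝ) (i : Fin j) {f f' : ℝ × ℝ → ℝ}
    (hf : Integrable f) (hf' : Integrable f') :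
    limM x δ F (Function.update g i fun y => f y - f' y) = limM x δ F (Function.update g i f) - limM x δ F (Function.update g i f') := by
  simp only [ht_limM_update, ht_fz_def]
  rw [← ht_E_sub]
  exact ht_E_congr x _ _ (fun h _ => by rw [ht_sm_sub δ F hf hf', sub_mul])

theorem ht_limM_update_smul (x δ : ℝ) (F : Finset TV) {j : ℕ} (g : Fin j → ℝ × ℝ → ℝ) (i : Fin j) (c : ℝ) (f : ℝ × ℝ → ℝ) :
    limM x δ F (Function.update g i fun y => c * f y) = c * limM x δ F (Function.update g i f) := by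
  simp only [ht_limM_update, ht_fz_def]
  rw [← ht_E_smul]
  exact ht_E_congr x _ _ (fun h _ => by rw [ht_sm_smul, mul_assoc])

theorem ht_limM_update_sum (x δ : ℝ) (F : Finset TV) {j : ℕ} (g : Fin j → ℝ × ℝ → ℝ) (i : Fin j) {ι : Type*} (s : Finset ι)
    {f : ι → ℝ × ℝ → ℝ} (hf : ∀ a ∈ s, Integrable (f a)) :
    limM x δ F (Function.update g i fun y => ∑ a ∈ s, f a y) = ∑ a ∈ s, limM x δ F (Function.update g i (f a)) := by
  simp only [ht_limM_update, ht_fz_def]
  rw [← ht_E_sum]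
  exact ht_E_congr x _ _ (fun h _ => by rw [ht_sm_sum δ F s hf, Finset.sum_mul])

/-- the first slot singled out -/
theorem ht_limM_cons (x δ : ℝ) (F : Finset TV) {j : ℕ} (f : ℝ × ℝ → ℝ) (g : Fin j → ℝ × ℝ → ℝ) :
    limM x δ F (Fin.cons f g : Fin (j + 1) → ℝ × ℝ → ℝ) = htFz x F fun h => htSm δ F f h * ∏ i, htSm δ F (g i) h := by
  rw [ht_limM_def]
  congr 1
  funext h
  rw [Fin.prod_univ_succ]
  simp

/-- symmetric -/
theorem ht_limM_perm (x δ : ℝ) (F : Finset TV) {j : ℕ} (g : Fin j → ℝ × ℝ → ℝ) (σ : Equiv.Perm (Fin j)) :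
    limM x δ F (fun i => g (σ i)) = limM x δ F g := by
  rw [ht_limM_def, ht_limM_def]
  congr 1
  funext h
  exact Equiv.prod_comp σ (fun i => htSm δ F (g i) h)

/-- an odd number of factors: the mixed moment vanishes EXACTLY -/
theorem ht_limM_odd (x δ : ℝ) (F : Finset TV) {j : ℕ} (hj : Odd j) (g : Fin j → ℝ × ℝ → ℝ) : limM x δ F g = 0 := by
  rw [ht_limM_def, ht_fz_def]
  refine ht_E_odd x _ (fun h => ?_)
  simp only [ht_sm_neg]
  rw [Finset.prod_neg]
  simp [hj.neg_one_pow]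

theorem ht_limM_const (x δ : ℝ) (F : Finset TV) (k : ℕ) (f : ℝ × ℝ → ℝ) :
    limM x δ F (fun _ : Fin k => f) = htFz x F fun h => htSm δ F f h ^ k := by
  rw [ht_limM_def]
  congr 1
  funext h
  simp

theorem ht_fz_const {x : ℝ} (hx : 0 < x) (F : Finset TV) (c : ℝ) : htFz x F (fun _ => c) = c :=
  ht_E_const hx (ht_adm_zero _) c

theorem ht_limM_zero {x : ℝ} (hx : 0 < x) (δ : ℝ) (F : Finset TV) (g : Fin 0 → ℝ × ℝ → ℝ) : limM x δ F g = 1 := by
  rw [ht_limM_def]
  simp only [Finset.univ_eq_empty, Finset.prod_empty]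
  exact ht_fz_const hx F 1

theorem ht_limM_one (x δ : ℝ) (F : Finset TV) (g : Fin 1 → ℝ × ℝ → ℝ) : limM x δ F g = 0 := ht_limM_odd x δ F odd_one g

/-- only the face weights of the faces of `latInt F` matter -/
theorem ht_limM_congr (x δ : ℝ) (F : Finset TV) {j : ℕ} {g g' : Fin j → ℝ × ℝ → ℝ} (h : ∀ i, ∀ u ∈ latInt F, latW δ (g i) u = latW δ (g' i) u) :
    limM x δ F g = limM x δ F g' := by
  rw [ht_limM_def, ht_limM_def]
  congr 1
  funext H
  refine Finset.prod_congr rfl (fun i _ => ?_)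
  rw [ht_sm_def, ht_sm_def]
  exact Finset.sum_congr rfl (fun u hu => by rw [h i u hu])

/-! ## 5. glue: `LimOut` gives the contract `exit_lim_mom` -/

theorem ht_lim_mom_of_out {x v : ℝ} (H : LimOut x v) (D : Set (ℝ × ℝ)) (hD : IsC2JordanDomain D) (δ : ℕ → ℝ) (F : ℕ → Finset (ℤ × ℤ))
    (hF : IsInsideApprox D δ F) (f : ℝ × ℝ → ℝ) (hf1 : ContDiff ℝ ((⊤ : ℕ∞) : WithTop ℕ∞) f) (hf2 : HasCompactSupport f) (hf3 : tsupport f ⊆ D)
    (u : ℝ × ℝ → ℝ) (hu1 : ContDiffOn ℝ 2 u D) (hu2 : ContinuousOn u (closure D)) (hu3 : ∀ z ∈ frontier D, u z = 0)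
    (hu4 : ∀ z ∈ D, -lap2 u z = f z) (k : ℕ) :
    Tendsto (fun n => lipschitzExpect x (δ n) 1 (F n) f (fun t => t ^ k)) atTop (𝓝 (tmmWick (v * ∫ z in D, f z * u z) k)) := by
  have := H D hD δ F hF f hf1 hf2 hf3 u hu1 hu2 hu3 hu4 k
  refine this.congr (fun n => ?_)
  rw [ht_bridge_pow, one_pow, div_one]

end

end Claimed.Agent.R291
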