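import Claimed.Agent.R291.Ht.Basic

/-!
# Row 291 (S0539), Ht/Rp : FINITE VOLUME REFLECTION POSITIVITY      (owner helper94; prefix `htr`)      complete (0 sorry)      CAPOK (shared by PLN and PIN)

TEX[prop:reflection-transfer], first paragraph of the proof (row conditioning): no edge of the triangular lattice jumps across a row of sites.
* `htr_loc`  locality of `htE x A b G` in the boundary function: only the values of `b` on `T \ A` matter if `T ⊇ latCl A` and `G` reads `T` only
* `htr_rp`   `A` symmetric under `latRefl`, zero boundary values, `F` ANY observable of the closed upper half plane `{n ≥ 0}`: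
             `0 ≤ htE x A 0 (fun h => F (fun u => h (latRefl u)) * F h)`     (DLR on the two open sides + `ht_E_refl`)
Consumers: PLN B5 (`pli_rp`), PIN (48, RP of `pinHat`).   Other rows / directions: conjugate by translations / `latRot` at the level of the plane law.
-/

set_option autoImplicit false

namespace Claimed.Agent.R291

open Claims Claims.C0467

/-- **locality in the boundary function**: if `T ⊇ latCl A`, `G` reads `T` only and `b = b'` on `T \ A`, the two laws give `G` the same mean -/
theorem htr_loc (x : ℝ) (A : Finset TV) (T : Set TV) (hT : ∀ u ∈ latCl A, u ∈ T) {b b' : TV → ℤ}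
    (hb : ∀ u ∈ T, u ∉ A → b u = b' u) {G : (TV → ℤ) → ℝ} (hG : ∀ h h' : TV → ℤ, (∀ u ∈ T, h u = h' u) → G h = G h') :
    htE x A b' G = htE x A b G := by
  classical
  let Φ : (TV → ℤ) ≃ (TV → ℤ) :=
    { toFun := fun h u => if u ∈ T then h u else h u - b u + b' u
      invFun := fun h u => if u ∈ T then h u else h u - b' u + b u
      left_inv := fun h => by
        funext u
        by_cases hu : u ∈ T <;> simp [hu]
      right_inv := fun h => by
        funext u
        by_cases hu : u ∈ T <;> simp [hu] }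
  have hΦ : ∀ h u, u ∈ T → Φ h u = h u := fun h u hu => by simp [Φ, hu]
  have hΦ' : ∀ h u, u ∉ T → Φ h u = h u - b u + b' u := fun h u hu => by simp [Φ, hu]
  rw [ht_E_transport x Φ (A := A) (b := b) (fun h => ?_) (fun h => ?_) G]
  · exact ht_E_congr x A b (fun h _ => hG _ _ (fun u hu => hΦ h u hu))
  · constructor
    · rintro ⟨h0, h1⟩
      refine ⟨fun u hu => ?_, fun u hu d hd => ?_⟩
      · have := h0 u hu
        by_cases huT : u ∈ T
        · rw [hΦ h u huT] at this; rw [this, hb u huT hu]
        · rw [hΦ' h u huT] at this; linarith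
      · have := h1 u hu d hd
        rwa [hΦ h u (hT u (lat_mem_cl.2 (Or.inl hu))),
          hΦ h (u + d) (hT _ (lat_mem_cl.2 (Or.inr ⟨u, hu, lat_adj_add u hd⟩)))] at this
    · rintro ⟨h0, h1⟩
      refine ⟨fun u hu => ?_, fun u hu d hd => ?_⟩
      · have := h0 u hu
        by_cases huT : u ∈ T
        · rw [hΦ h u huT, this, hb u huT hu]
        · rw [hΦ' h u huT, this]; ring
      · rw [hΦ h u (hT u (lat_mem_cl.2 (Or.inl hu))),
          hΦ h (u + d) (hT _ (lat_mem_cl.2 (Or.inr ⟨u, hu, lat_adj_add u hd⟩)))]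
        exact h1 u hu d hd
  · exact ht_N_congr (fun u hu => hΦ h u (hT u hu))

/-- the part of `A` strictly above the row `n = 0` -/
def htrUp (A : Finset TV) : Finset TV := A.filter fun u => 0 < u.2

/-- the part of `A` strictly below the row `n = 0` -/
def htrDn (A : Finset TV) : Finset TV := A.filter fun u => u.2 < 0

theorem htr_dirs_snd {d : TV} (hd : d ∈ latDirs) : -1 ≤ d.2 ∧ d.2 ≤ 1 := by
  simp only [latDirs, Finset.mem_insert, Finset.mem_singleton] at hd
  rcases hd with rfl | rfl | rfl | rfl | rfl | rfl <;> simp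

theorem htr_cl_up (A : Finset TV) : ∀ u ∈ latCl (htrUp A), u ∈ {u : TV | 0 ≤ u.2} := by
  intro u hu
  rcases lat_mem_cl.1 hu with h | ⟨v, hv, hvu⟩
  · exact (Finset.mem_filter.1 h).2.le
  · have h1 := (Finset.mem_filter.1 hv).2
    have h2 := (htr_dirs_snd ((lat_adj_iff v u).1 hvu)).1
    simp only [Prod.snd_sub] at h2
    show 0 ≤ u.2
    omega

theorem htr_dn_eq {A : Finset TV} (hA : A.image latRefl = A) : htrDn A = (htrUp A).image latRefl := by
  ext u
  simp only [htrDn, htrUp, Finset.mem_filter, Finset.mem_image]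
  constructor
  · rintro ⟨h1, h2⟩
    refine ⟨latRefl u, ⟨?_, ?_⟩, lat_refl_refl u⟩
    · rw [← hA]; exact Finset.mem_image_of_mem _ h1
    · simp only [latRefl]; omega
  · rintro ⟨v, ⟨h1, h2⟩, rfl⟩
    refine ⟨?_, ?_⟩
    · rw [← hA]; exact Finset.mem_image_of_mem _ h1
    · simp only [latRefl]; omega

/-- **finite volume reflection positivity** across the site row `n = 0` (TEX[prop:reflection-transfer], first paragraph of the proof):
`A` symmetric, zero boundary values, `F` ANY observable of the closed upper half plane. -/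
theorem htr_rp {x : ℝ} (hx : 0 < x) (A : Finset TV) (hA : A.image latRefl = A) (F : (TV → ℤ) → ℝ)
    (hF : ∀ h h' : TV → ℤ, (∀ u : TV, 0 ≤ u.2 → h u = h' u) → F h = F h') :
    0 ≤ htE x A 0 (fun h => F (fun u => h (latRefl u)) * F h) := by
  set Fθ : (TV → ℤ) → ℝ := fun h => F (fun u => h (latRefl u)) with hFθ
  set P : (TV → ℤ) → ℝ := fun h => htE x (htrUp A) h F with hP
  have hup : htrUp A ⊆ A := Finset.filter_subset _ _
  have hdn : htrDn A ⊆ A := Finset.filter_subset _ _
  -- step 1
  have s1 : htE x A 0 (fun h => Fθ h * F h) = htE x A 0 (fun h => Fθ h * P h) := by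
    refine ht_dlr_mul hx hup 0 (fun g h hgh => ?_) F
    refine hF _ _ (fun u hu => hgh _ (fun hmem => ?_))
    have := (Finset.mem_filter.1 hmem).2
    simp only [latRefl] at this
    omega
  -- step 2
  have hPloc : ∀ g h : TV → ℤ, (∀ u, u ∉ htrDn A → g u = h u) → P g = P h := by
    intro g h hgh
    refine htr_loc x (htrUp A) {u : TV | 0 ≤ u.2} (htr_cl_up A) (fun u hu _ => ?_) (fun h h' hh => hF h h' hh)
    refine (hgh u (fun hmem => ?_)).symm
    have := (Finset.mem_filter.1 hmem).2
    have hu' : 0 ≤ u.2 := hu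
    omega
  have s2 : htE x A 0 (fun h => Fθ h * P h) = htE x A 0 (fun h => P h * htE x (htrDn A) h Fθ) := by
    rw [← ht_dlr_mul hx hdn 0 hPloc Fθ]
    exact ht_E_congr x A 0 (fun h _ => mul_comm _ _)
  -- step 3
  have s3 : ∀ h, HtAdm A 0 h → htE x (htrDn A) h Fθ = P h := by
    intro h hh
    rw [htr_dn_eq hA, hFθ, ht_E_refl x (htrUp A) h F]
    refine htr_loc x (htrUp A) {u : TV | 0 ≤ u.2} (htr_cl_up A) (fun u hu hnu => ?_) (fun h h' hh => hF h h' hh)
    have hu' : 0 ≤ u.2 := hu
    rcases hu'.eq_or_lt with h0 | h0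
    · have : latRefl u = u := by
        simp only [latRefl, Prod.ext_iff]
        constructor <;> omega
      rw [this]
    · have h1 : u ∉ A := fun hmem => hnu (Finset.mem_filter.2 ⟨hmem, h0⟩)
      have h2 : latRefl u ∉ A := fun hmem => h1 (by
        have := Finset.mem_image_of_mem latRefl hmem
        rwa [lat_refl_refl, hA] at this)
      rw [hh.1 u h1, hh.1 _ h2]; rfl
  rw [s1, s2]
  refine ht_E_nonneg hx A 0 (fun h hh => ?_)
  rw [s3 h hh]
  exact mul_self_nonneg _

end Claimed.Agent.R291
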